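import Vale.Agent.P022D.PA.Defs

/-!
P022D, block A (assembly): the patching theorem, on modules and on the side of the forms.
-/

set_option linter.all false

noncomputable section

namespace Vale.Agent.P022D.A

open IsLocalRing Filter Vale.Agent.P022D.PA

/-- additive functions on the steps `E a b c` (`b` is an extension of `a` and `c`) are bounded
below at `g` by the multiples of their values at `j J` -/
def Comb {𝓘 𝒥 : Type} (E : 𝓘 → 𝓘 → 𝓘 → Prop) (g : 𝓘) (j : 𝒥 → 𝓘) (m : 𝒥 → ℕ) : Prop :=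
  ∀ N : 𝓘 → ℕ∞, (∀ a b c, E a b c → N b = N a + N c) → ∀ J, (m J : ℕ∞) * N (j J) ≤ N g

/-- the part of the data which only concerns rings: `P₀` local coordinates, `P` its cover,
`s n` the parameters `y q`, `w n q`, frames, `x` the point -/
structure Rg (P₀ P O' κ φ 𝒥 : Type) [CommRing P₀] [CommRing P] [Algebra P₀ P] [CommRing O'] where
  π : P₀
  I : Ideal P₀
  y : κ → P
  w : ℕ → κ → P
  fr : ℕ → φ → P
  a : ℕ → κ → P₀
  b : ℕ → κ → P₀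
  D : ℕ → P
  e : 𝒥 → Ideal P₀
  m : 𝒥 → ℕ
  p : 𝒥 → Ideal P
  x : P →+* O'

namespace Rg

variable {P₀ P O' κ φ 𝒥 : Type} [CommRing P₀] [CommRing P] [Algebra P₀ P] [CommRing O']
  (R : Rg P₀ P O' κ φ 𝒥)

/-- the parameters without the uniformiser -/
def s (n : ℕ) : κ ⊕ κ ⊕ φ → P := Sum.elim R.y (Sum.elim (R.w n) (R.fr n))

/-- the parameters with the uniformiser -/
def u (n : ℕ) : Option (κ ⊕ κ ⊕ φ) → P := fun i => i.elim (algebraMap P₀ P R.π) (R.s n)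

/-- the relations of level `n` -/
def rel (n : ℕ) : Ideal P :=
  R.I.map (algebraMap P₀ P) ⊔
    Ideal.span (Set.range fun q => R.y q ^ 2 - algebraMap P₀ P (R.a n q) * R.y q +
      algebraMap P₀ P (R.b n q)) ⊔
    Ideal.span (Set.range fun q => 2 * R.y q - algebraMap P₀ P (R.a n q) + (1 + R.y q) * R.w n q)

/-- the dimension of the special fibre -/
def top [Fintype κ] [Fintype φ] (_ : Rg P₀ P O' κ φ 𝒥) : ℕ :=
  Fintype.card (κ ⊕ κ ⊕ φ) + 2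

/-- the hypotheses on the rings -/
structure Ok [Fintype κ] [Fintype φ] [Base P₀] [Base P] : Prop where
  loc : ∀ z ∈ maximalIdeal P₀, algebraMap P₀ P z ∈ maximalIdeal P
  cov : ∀ a b : κ → P₀, (∀ q, a q ∈ maximalIdeal P₀ ∧ b q ∈ maximalIdeal P₀) →
    Cov P₀ P R.y a b (Ideal.span (Set.range fun q =>
      R.y q ^ 2 - algebraMap P₀ P (a q) * R.y q + algebraMap P₀ P (b q)))
  ab : ∀ n q, R.a n q ∈ maximalIdeal P₀ ∧ R.b n q ∈ maximalIdeal P₀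
  um : ∀ n i, R.u n i ∈ maximalIdeal P
  two : R.π ∣ 2
  typ : ∀ (η : Ideal P₀) [η.IsPrime], R.I ⊔ Ideal.span {R.π} ≤ η →
    (R.top : WithBot ℕ∞) ≤ ringKrullDim (P₀ ⧸ η) → ∃ J,
      ln η (P₀ ⧸ (R.I ⊔ Ideal.span {R.π})) ≤ (R.m J : ℕ∞) ∧
      ∀ (η' : Ideal P₀) [η'.IsPrime], R.I ⊔ Ideal.span {R.π} ⊔ R.e J ≤ η' →
        (R.top : WithBot ℕ∞) ≤ ringKrullDim (P₀ ⧸ η') → η' = η
  pp : ∀ J, (R.p J).IsPrime ∧ 2 ≤ ringKrullDim (P ⧸ R.p J)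
  pD : ∀ J, ∃ k : ℕ, ∀ᶠ n in atTop, R.D n ∉ R.p J ⊔ maximalIdeal P ^ k
  xD : ∃ k : ℕ, ∀ᶠ n in atTop, R.D n ∉ RingHom.ker R.x ⊔ maximalIdeal P ^ k
  xs : ∀ n i, R.x (R.s n i) = 0
  xab : ∀ n q, R.x (algebraMap P₀ P (R.a n q)) = 0 ∧ R.x (algebraMap P₀ P (R.b n q)) = 0
  ch0 : ∃ 𝔮 η : Ideal P₀, 𝔮.IsPrime ∧ η.IsPrime ∧ R.I ≤ 𝔮 ∧
    𝔮 ≤ RingHom.ker (R.x.comp (algebraMap P₀ P)) ∧ 𝔮 ⊔ Ideal.span {R.π} ≤ η ∧
    (R.top : WithBot ℕ∞) ≤ ringKrullDim (P₀ ⧸ η)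

end Rg

/-- **PATCH**, on finitely generated modules -/
def PATCH : Prop := ∀ (P₀ P O' κ φ 𝒥 𝓘 : Type) [CommRing P₀] [CommRing P] [Algebra P₀ P]
  [CommRing O'] [IsDomain O'] [Fintype κ] [Fintype φ] [Base P₀] [Base P]
  (R : Rg P₀ P O' κ φ 𝒥), R.Ok →
  ∀ (E : 𝓘 → 𝓘 → 𝓘 → Prop) (g : 𝓘) (j : 𝒥 → 𝓘), Comb E g j R.m →
  ∀ (M : ℕ → Type) [∀ n, AddCommGroup (M n)] [∀ n, Module P (M n)]
    (X : 𝓘 → ℕ → Type) [∀ i n, AddCommGroup (X i n)] [∀ i n, Module P (X i n)]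
    (G : 𝓘 → Type) [∀ i, AddCommGroup (G i)] [∀ i, Module P (G i)],
  Gd atTop R.u R.D M (G g) → (∀ i, Gd atTop R.s R.D (X i) (G i)) →
  (∀ n, ∃ r : M n →ₗ[P] X g n, Function.Surjective r ∧
    LinearMap.ker r = Ideal.span {algebraMap P₀ P R.π} • (⊤ : Submodule P (M n))) →
  (∀ a b c, E a b c → ∀ n, ∃ (f : X c n →ₗ[P] X b n) (f' : X b n →ₗ[P] X a n),
    (∀ v, f v ∈ J1 (R.s n) • (⊤ : Submodule P (X b n)) →
      v ∈ J1 (R.s n) • (⊤ : Submodule P (X c n))) ∧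
    Function.Exact f f' ∧ Function.Surjective f') →
  (∀ n, ∃ v₀ : X g n, ∀ v : X g n, (∏ q, R.w n q) • v ∈ Submodule.span P {v₀}) →
  (∀ n, R.rel n ≤ Module.annihilator P (M n)) →
  (∀ J n, R.rel n ⊔ Ideal.span {algebraMap P₀ P R.π} ⊔ (R.e J).map (algebraMap P₀ P) ≤
    Module.annihilator P (X (j J) n)) →
  (∀ J, Module.annihilator P (G (j J)) ≤ R.p J) →
  ∀ t : P, (∀ n (v : M n), (R.D n * t) • v ∈ J1 (R.s n) • (⊤ : Submodule P (M n))) → R.x t = 0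

/-- every element is killed by a power of the maximal ideal -/
def Disc (P : Type) [CommRing P] [IsLocalRing P] (V : Type) [AddCommGroup V] [Module P V] : Prop :=
  ∀ v : V, ∃ k : ℕ, ∀ f ∈ maximalIdeal P ^ k, f • v = 0

/-- the socle -/
def soc (P : Type) [CommRing P] [IsLocalRing P] (V : Type) [AddCommGroup V] [Module P V] :
    Set V := {v | ∀ f ∈ maximalIdeal P, f • v = 0}

/-- **PATCH**, on the side of the forms: `V n` ambient, `A n` divisible, `Y n i` killed by the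
uniformiser, `V₀`, `Y₀ i` the fixed level (already summed over the degeneracy maps) -/
def PATCHF : Prop := ∀ (P₀ P O' κ φ 𝒥 𝓘 : Type) [CommRing P₀] [CommRing P] [Algebra P₀ P]
  [CommRing O'] [IsDomain O'] [Fintype κ] [Fintype φ] [Base P₀] [Base P]
  (R : Rg P₀ P O' κ φ 𝒥), R.Ok →
  ∀ (E : 𝓘 → 𝓘 → 𝓘 → Prop) (g : 𝓘) (j : 𝒥 → 𝓘), Comb E g j R.m →
  ∀ (V : ℕ → Type) [∀ n, AddCommGroup (V n)] [∀ n, Module P (V n)]
    (A : ∀ n, Submodule P (V n)) (Y : ∀ n, 𝓘 → Submodule P (V n))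
    (V₀ : Type) [AddCommGroup V₀] [Module P V₀] (Y₀ : 𝓘 → Submodule P V₀),
  (∀ n, Disc P (V n)) → Disc P V₀ →
  (∀ i, ∃ b : ℕ, ∀ n, (soc P (Y n i)).Finite ∧ (soc P (Y n i)).ncard ≤ b) →
  (∀ i, (soc P (Y₀ i)).Finite) →
  -- the uniformiser
  (∀ n i, ∀ v ∈ Y n i, algebraMap P₀ P R.π • v = 0) →
  (∀ n v, v ∈ Y n g ↔ v ∈ A n ∧ algebraMap P₀ P R.π • v = 0) →
  (∀ n, ∀ v ∈ A n, ∃ v' ∈ A n, v = algebraMap P₀ P R.π • v') →
  -- the group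
  (∀ n i (v : V n), ((1 + R.s n i) ^ 2 ^ n - 1) • v = 0) →
  (∀ n i, ∀ v ∈ Y n i, (∀ k, R.s n k • v = 0) →
    ∃ v' ∈ Y n i, v = (∏ k, R.s n k) ^ (2 ^ n - 1) • v') →
  -- the fibres
  (∀ n i, ∃ γ : Y₀ i →ₗ[P] Y n i, (∀ k v, R.s n k • γ v = 0) ∧ (∀ v, γ v = 0 → R.D n • v = 0) ∧
    ∀ v : Y n i, (∀ k, R.s n k • v = 0) → R.D n • v ∈ LinearMap.range γ) →
  -- the steps
  (∀ a b c, E a b c → ∀ n, Y n a ≤ Y n b ∧ ∃ ε : Y n b →ₗ[P] Y n c,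
    (∀ v, ε v = 0 ↔ (v : V n) ∈ Y n a) ∧ Function.Surjective ε) →
  -- cyclicity
  (∀ n, ∃ lam : V n →+ AddCircle (1 : ℚ), ∀ v ∈ Y n g, (∀ f : P, lam (f • v) = 0) →
    (∏ q, R.w n q) • v = 0) →
  -- relations
  (∀ n, ∀ f ∈ R.rel n, ∀ v : V n, f • v = 0) →
  (∀ J n, ∀ f ∈ R.e J, ∀ v ∈ Y n (j J), algebraMap P₀ P f • v = 0) →
  (∀ J, Module.annihilator P (Y₀ (j J)) ≤ R.p J) →
  ∀ t : P, (∀ n, ∀ v ∈ A n, (∀ k, R.s n k • v = 0) → (R.D n * t) • v = 0) → R.x t = 0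

/-- **DUAL** -/
def DUAL : Prop := PATCH → PATCHF

/-- **COV**: power series over a base ring -/
def COV : Prop := ∀ (P₀ κ : Type) [CommRing P₀] [Base P₀] [Fintype κ],
  ∃ _ : Base (MvPowerSeries κ P₀),
    (∀ z ∈ maximalIdeal P₀, algebraMap P₀ (MvPowerSeries κ P₀) z ∈
      maximalIdeal (MvPowerSeries κ P₀)) ∧
    (∀ f : MvPowerSeries κ P₀, f ∈ maximalIdeal (MvPowerSeries κ P₀) ↔
      MvPowerSeries.constantCoeff f ∈ maximalIdeal P₀) ∧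
    ∀ a b : κ → P₀, (∀ q, a q ∈ maximalIdeal P₀ ∧ b q ∈ maximalIdeal P₀) →
      Cov P₀ (MvPowerSeries κ P₀) MvPowerSeries.X a b (Ideal.span (Set.range fun q =>
        (MvPowerSeries.X q : MvPowerSeries κ P₀) ^ 2 -
          algebraMap P₀ (MvPowerSeries κ P₀) (a q) * MvPowerSeries.X q +
          algebraMap P₀ (MvPowerSeries κ P₀) (b q)))

end Vale.Agent.P022D.A
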